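import Mathlib

/-!
P033: symmetric functions on `ℤ/N` with perfect autocorrelation.
-/

namespace Vale.Agent.P033

open Finset

/-- periodic autocorrelation -/
def ac {N : ℕ} [NeZero N] (f : ZMod N → ℤ) (s : ZMod N) : ℤ := ∑ j, f j * f (j + s)

theorem sum_ac {N : ℕ} [NeZero N] (f : ZMod N → ℤ) : ∑ s, ac f s = (∑ j, f j) ^ 2 := by
  unfold ac
  rw [Finset.sum_comm, sq, Finset.sum_mul]
  refine Finset.sum_congr rfl fun j _ => ?_
  rw [← Finset.mul_sum]
  congr 1
  exact Fintype.sum_equiv (Equiv.addLeft j) _ _ (fun _ => rfl)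

section frob

variable {N : ℕ} [NeZero N] {q : ℕ} [Fact q.Prime]

/-- the element of the group ring -/
noncomputable def gr (q : ℕ) (f : ZMod N → ℤ) : AddMonoidAlgebra (ZMod q) (ZMod N) :=
  ∑ b, AddMonoidAlgebra.single b ((f b : ℤ) : ZMod q)

theorem gr_sq (f : ZMod N → ℤ) (hs : ∀ b, f (-b) = f b) {K : ℤ}
    (hac : ∀ s, ac f s = if s = 0 then K else 0) :
    gr q f * gr q f = AddMonoidAlgebra.single 0 ((K : ℤ) : ZMod q) := by
  unfold gr
  rw [Finset.sum_mul_sum]
  simp only [AddMonoidAlgebra.single_mul_single]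
  have h1 : ∀ a : ZMod N, ∑ b, AddMonoidAlgebra.single (a + b)
      (((f a : ℤ) : ZMod q) * ((f b : ℤ) : ZMod q)) =
      ∑ s, (AddMonoidAlgebra.single s (((f a : ℤ) : ZMod q) * ((f (s - a) : ℤ) : ZMod q)) :
        AddMonoidAlgebra (ZMod q) (ZMod N)) := by
    intro a
    refine Fintype.sum_equiv (Equiv.addLeft a) _ _ (fun b => ?_)
    simp
  simp only [h1]
  rw [Finset.sum_comm]
  have h2 : ∀ s : ZMod N, ∑ a, (AddMonoidAlgebra.single s (((f a : ℤ) : ZMod q) *
      ((f (s - a) : ℤ) : ZMod q)) : AddMonoidAlgebra (ZMod q) (ZMod N)) =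
      AddMonoidAlgebra.single s (((if s = 0 then K else 0 : ℤ)) : ZMod q) := by
    intro s
    have h3 : (∑ a, (((f a : ℤ) : ZMod q) * ((f (s - a) : ℤ) : ZMod q))) =
        (((if s = 0 then K else 0 : ℤ)) : ZMod q) := by
      have h4 : (if s = 0 then K else 0) = ac f (-s) := by
        rw [hac]
        simp
      rw [h4]
      unfold ac
      push_cast
      refine Finset.sum_congr rfl fun a _ => ?_
      congr 2
      rw [← hs (s - a)]
      congr 1
      ring
    rw [← h3]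
    exact (map_sum (AddMonoidAlgebra.singleAddHom s : ZMod q →+ AddMonoidAlgebra (ZMod q) (ZMod N)) _ _).symm
  simp only [h2]
  rw [Finset.sum_eq_single (0 : ZMod N)]
  · simp
  · intro s _ hs
    simp [hs]
  · intro h
    exact absurd (Finset.mem_univ _) h

theorem charP_gr : CharP (AddMonoidAlgebra (ZMod q) (ZMod N)) q := by
  have : Function.Injective (algebraMap (ZMod q) (AddMonoidAlgebra (ZMod q) (ZMod N))) :=
    FaithfulSMul.algebraMap_injective _ _
  exact charP_of_injective_algebraMap this q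

theorem gr_pow (f : ZMod N → ℤ) :
    gr q f ^ q = ∑ b : ZMod N, AddMonoidAlgebra.single (q • b) ((f b : ℤ) : ZMod q) := by
  have := charP_gr (N := N) (q := q)
  unfold gr
  rw [sum_pow_char]
  refine Finset.sum_congr rfl fun b _ => ?_
  rw [AddMonoidAlgebra.single_pow, ZMod.pow_card]

theorem inv_prime (f : ZMod N → ℤ) (hs : ∀ b, f (-b) = f b) {k : ℤ}
    (hac : ∀ s, ac f s = if s = 0 then k ^ 2 else 0) {M : ℕ} (hM : ∀ b, |f b| ≤ M)
    (hqM : 2 * M < q) (hqN : q.Coprime N) (hk : ((k : ℤ) : ZMod q) ≠ 0) (hq2 : q ≠ 2)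
    (b : ZMod N) : f ((q : ZMod N) * b) = f b := by
  have hp : q.Prime := Fact.out
  have hodd : q % 2 = 1 := (hp.eq_two_or_odd).resolve_left hq2
  have h1 := gr_sq (q := q) f hs hac
  have h2 : gr q f ^ q = gr q f := by
    have h3 : q = 2 * (q / 2) + 1 := by omega
    have h4 : gr q f ^ (2 * (q / 2) + 1) = gr q f := by
      rw [pow_succ, pow_mul, sq, h1, AddMonoidAlgebra.single_pow]
      have h5 : (((k ^ 2 : ℤ)) : ZMod q) ^ (q / 2) = 1 := by
        push_cast
        rw [← pow_mul]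
        have h6 : 2 * (q / 2) = q - 1 := by omega
        rw [h6]
        exact ZMod.pow_card_sub_one_eq_one hk
      rw [h5, smul_zero]
      exact one_mul _
    rw [← h3] at h4
    exact h4
  rw [gr_pow] at h2
  have hinj : Function.Injective (fun x : ZMod N => q • x) := by
    intro x y hxy
    have hu : IsUnit (q : ZMod N) := (ZMod.isUnit_iff_coprime q N).2 hqN
    simp only [nsmul_eq_mul] at hxy
    exact hu.mul_left_cancel hxy
  have h7 := congrArg (fun x => x.coeff (q • b)) h2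
  simp only [gr, AddMonoidAlgebra.coeff_sum, AddMonoidAlgebra.coeff_single,
    Finsupp.finset_sum_apply] at h7
  have h8 : ∑ x : ZMod N, (Finsupp.single (q • x) ((f x : ℤ) : ZMod q)) (q • b) =
      ((f b : ℤ) : ZMod q) := by
    rw [Finset.sum_eq_single b]
    · simp
    · intro x _ hx
      rw [Finsupp.single_apply, if_neg (fun h => hx (hinj h))]
    · intro h
      exact absurd (Finset.mem_univ _) h
  have h9 : ∑ x : ZMod N, (Finsupp.single x ((f x : ℤ) : ZMod q)) (q • b) =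
      ((f (q • b) : ℤ) : ZMod q) := by
    rw [Finset.sum_eq_single (q • b)]
    · simp
    · intro x _ hx
      rw [Finsupp.single_apply, if_neg hx]
    · intro h
      exact absurd (Finset.mem_univ _) h
  rw [h8, h9] at h7
  have h10 : (q : ℤ) ∣ f (q • b) - f b := (ZMod.intCast_eq_intCast_iff_dvd_sub _ _ _).1 h7
  have h11 : |f (q • b) - f b| < q := by
    have := abs_sub (f (q • b)) (f b)
    have h12 := hM (q • b)
    have h13 := hM b
    have h14 : ((2 * M : ℕ) : ℤ) < q := by exact_mod_cast hqM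
    push_cast at h14
    linarith
  have h15 := Int.eq_zero_of_abs_lt_dvd h10 h11
  rw [nsmul_eq_mul] at h15
  linarith

end frob

variable {N : ℕ} [NeZero N]

theorem inv_unit (f : ZMod N → ℤ) (hs : ∀ b, f (-b) = f b) {k : ℤ} (hk0 : k ≠ 0)
    (hac : ∀ s, ac f s = if s = 0 then k ^ 2 else 0) {M : ℕ} (hM : ∀ b, |f b| ≤ M)
    {t : ZMod N} (ht : IsUnit t) (b : ZMod N) : f (t * b) = f b := by
  obtain ⟨q, hq, hp, hqt⟩ := Nat.forall_exists_prime_gt_and_eq_mod ht (2 * M + 2 + k.natAbs)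
  have : Fact q.Prime := ⟨hp⟩
  rw [← hqt]
  refine inv_prime f hs hac hM (by omega) ?_ ?_ (by omega) b
  · rw [← ZMod.isUnit_iff_coprime, hqt]
    exact ht
  · intro h
    rw [ZMod.intCast_zmod_eq_zero_iff_dvd] at h
    have h1 := Int.le_of_dvd (by positivity : (0:ℤ) < |k|) ((dvd_abs _ _).2 h)
    rw [Int.abs_eq_natAbs] at h1
    omega

theorem gcd_val_mul (u : ZMod N) (hu : IsUnit u) (d : ℕ) :
    Nat.gcd (u * (d : ZMod N)).val N = Nat.gcd d N := by
  have h1 : (u * (d : ZMod N)) = ((u.val * d : ℕ) : ZMod N) := by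
    push_cast
    rw [ZMod.natCast_zmod_val]
  rw [h1, ZMod.val_natCast]
  have h2 : Nat.gcd (u.val * d % N) N = Nat.gcd (u.val * d) N := by
    rw [← Nat.gcd_rec, Nat.gcd_comm]
  rw [h2]
  have h3 : Nat.Coprime u.val N := by
    rw [← ZMod.isUnit_iff_coprime, ZMod.natCast_zmod_val]
    exact hu
  exact h3.gcd_mul_left_cancel d

theorem inv_gcd (f : ZMod N → ℤ) (hf : ∀ t : ZMod N, IsUnit t → ∀ b, f (t * b) = f b)
    {b b' : ZMod N} (h : Nat.gcd b.val N = Nat.gcd b'.val N) : f b = f b' := by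
  obtain ⟨d, hd, u, hu, hb⟩ := ZMod.eq_unit_mul_divisor b
  obtain ⟨d', hd', u', hu', hb'⟩ := ZMod.eq_unit_mul_divisor b'
  have h1 : d = d' := by
    rw [hb, hb', gcd_val_mul u hu, gcd_val_mul u' hu', Nat.gcd_eq_left hd, Nat.gcd_eq_left hd'] at h
    exact h
  rw [hb, hb', hf u hu, hf u' hu', h1]

theorem gcd_shift {p e w β : ℕ} (hp : p.Prime) (he : 1 ≤ e) (hw : p.Coprime w)
    (h1 : ¬ p ^ e ∣ β) (h2 : ¬ p ^ e ∣ β + p ^ (e - 1) * w) :
    Nat.gcd (β + p ^ (e - 1) * w) (p ^ e * w) = Nat.gcd β (p ^ e * w) := by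
  have hcop : Nat.Coprime (p ^ e) w := Nat.Coprime.pow_left e hw
  rw [Nat.Coprime.gcd_mul _ hcop, Nat.Coprime.gcd_mul _ hcop]
  have key : ∀ x, ¬ p ^ e ∣ x → Nat.gcd x (p ^ e) = Nat.gcd x (p ^ (e - 1)) := by
    intro x hx
    apply Nat.dvd_antisymm
    · refine Nat.dvd_gcd (Nat.gcd_dvd_left _ _) ?_
      obtain ⟨i, hi, hi2⟩ := (Nat.dvd_prime_pow hp).1 (Nat.gcd_dvd_right x (p ^ e))
      rw [hi2]
      have hne : i ≠ e := by
        rintro rfl
        exact hx (hi2 ▸ Nat.gcd_dvd_left x (p ^ i))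
      exact pow_dvd_pow p (by omega)
    · exact Nat.gcd_dvd_gcd_of_dvd_right x (pow_dvd_pow p (by omega))
  rw [key _ h1, key _ h2]
  congr 1
  · rw [Nat.gcd_add_mul_left_left]
  · rw [Nat.gcd_add_mul_right_left]

theorem card_le {p e w : ℕ} (hN : N = p ^ e * w) (hpe : 0 < p ^ e) (c : ZMod N) :
    (Finset.univ.filter (fun b : ZMod N => p ^ e ∣ (b + c).val)).card ≤ w := by
  rw [← Finset.card_range w]
  refine Finset.card_le_card_of_injOn (fun b => (b + c).val / p ^ e) ?_ ?_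
  · intro b hb
    simp only [Finset.coe_range, Set.mem_Iio]
    rw [Nat.div_lt_iff_lt_mul hpe]
    have := (ZMod.val_lt (b + c)).trans_eq hN
    linarith [mul_comm (p ^ e) w]
  · intro b hb b' hb' h
    simp only [Finset.coe_filter, Finset.mem_univ, true_and, Set.mem_setOf_eq] at hb hb'
    have h1 : (b + c).val = (b' + c).val := by
      rw [← Nat.div_mul_cancel hb, ← Nat.div_mul_cancel hb']
      simp only at h
      rw [h]
    have h2 := ZMod.val_injective N h1
    exact add_right_cancel h2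

/-- the main inequality -/
theorem main_ineq (f : ZMod N → ℤ) (hs : ∀ b, f (-b) = f b) {K : ℤ} (hK : 0 < K)
    (hac : ∀ s, ac f s = if s = 0 then K else 0) {M : ℕ} (hM : ∀ b, |f b| ≤ M)
    {p e w : ℕ} (hp : p.Prime) (he : 1 ≤ e) (hw : p.Coprime w) (hN : N = p ^ e * w) :
    K ≤ 4 * (M : ℤ) ^ 2 * w := by
  have hpe : 0 < p ^ e := pow_pos hp.pos e
  have hw0 : 0 < w := by
    rcases Nat.eq_zero_or_pos w with h | h
    · exfalso
      rw [h, mul_zero] at hN
      exact NeZero.ne N hN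
    · exact h
  -- K is a square
  have hsq : K = (∑ j, f j) ^ 2 := by
    rw [← sum_ac, Finset.sum_congr rfl fun s _ => hac s]
    simp
  have hk0 : (∑ j, f j) ≠ 0 := by
    intro h
    rw [h] at hsq
    norm_num at hsq
    omega
  have hac' : ∀ s, ac f s = if s = 0 then (∑ j, f j) ^ 2 else 0 := by
    rw [← hsq]
    exact hac
  have hinv : ∀ t : ZMod N, IsUnit t → ∀ b, f (t * b) = f b := fun t ht b =>
    inv_unit f hs hk0 hac' hM ht b
  set c : ZMod N := ((p ^ (e - 1) * w : ℕ) : ZMod N) with hc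
  have hclt : p ^ (e - 1) * w < N := by
    rw [hN]
    exact Nat.mul_lt_mul_of_pos_right (Nat.pow_lt_pow_right hp.one_lt (by omega)) hw0
  have hcpos : 0 < p ^ (e - 1) * w := Nat.mul_pos (pow_pos hp.pos _) hw0
  have hc0 : c ≠ 0 := by
    rw [hc, Ne, ZMod.natCast_eq_zero_iff]
    exact Nat.not_dvd_of_pos_of_lt hcpos hclt
  have hdvd : p ^ e ∣ N := hN ▸ Dvd.intro w rfl
  have hmod : ∀ x : ℕ, p ^ e ∣ ((x : ℕ) : ZMod N).val ↔ p ^ e ∣ x := by
    intro x
    rw [ZMod.val_natCast]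
    exact Nat.dvd_mod_iff hdvd
  have hgcd : ∀ x : ℕ, Nat.gcd ((x : ℕ) : ZMod N).val N = Nat.gcd x N := by
    intro x
    rw [ZMod.val_natCast, ← Nat.gcd_rec, Nat.gcd_comm]
  -- f (b + c) = f b outside two small sets
  have hstep : ∀ b : ZMod N, ¬ p ^ e ∣ (b + 0).val → ¬ p ^ e ∣ (b + c).val → f (b + c) = f b := by
    intro b h1 h2
    rw [add_zero] at h1
    have hb : b = ((b.val : ℕ) : ZMod N) := (ZMod.natCast_zmod_val b).symm
    have hbc : b + c = ((b.val + p ^ (e - 1) * w : ℕ) : ZMod N) := by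
      rw [hc, Nat.cast_add, ZMod.natCast_zmod_val]
    have h3 : ¬ p ^ e ∣ b.val + p ^ (e - 1) * w := by
      rw [hbc, hmod] at h2
      exact h2
    refine inv_gcd f hinv ?_
    rw [hbc, hgcd]
    have := gcd_shift hp he hw h1 h3
    rw [← hN] at this
    exact this
  have hterm : ∀ b : ZMod N, (f b - f (b + c)) ^ 2 ≤
      (if p ^ e ∣ (b + 0).val then 4 * (M : ℤ) ^ 2 else 0) +
      (if p ^ e ∣ (b + c).val then 4 * (M : ℤ) ^ 2 else 0) := by
    intro b
    have hbd : (f b - f (b + c)) ^ 2 ≤ 4 * (M : ℤ) ^ 2 := by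
      have h1 := abs_le.1 (hM b)
      have h2 := abs_le.1 (hM (b + c))
      have h3 : |f b - f (b + c)| ≤ |2 * (M : ℤ)| := by
        rw [abs_of_nonneg (by positivity : (0:ℤ) ≤ 2 * (M : ℤ)), abs_le]
        constructor <;> linarith [h1.1, h1.2, h2.1, h2.2]
      have h4 := sq_le_sq.2 h3
      linarith
    have hpos : (0 : ℤ) ≤ 4 * (M : ℤ) ^ 2 := by positivity
    by_cases h1 : p ^ e ∣ (b + 0).val
    · rw [if_pos h1]
      split_ifs <;> linarith
    · by_cases h2 : p ^ e ∣ (b + c).val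
      · rw [if_pos h2]
        split_ifs <;> linarith
      · rw [hstep b h1 h2, sub_self]
        split_ifs
        norm_num
  have hsum : ∑ b, (f b - f (b + c)) ^ 2 ≤ 2 * (w * (4 * (M : ℤ) ^ 2)) := by
    refine (Finset.sum_le_sum fun b _ => hterm b).trans ?_
    rw [Finset.sum_add_distrib, ← Finset.sum_filter, ← Finset.sum_filter, Finset.sum_const,
      Finset.sum_const, nsmul_eq_mul, nsmul_eq_mul]
    have h1 : (((Finset.univ.filter (fun b : ZMod N => p ^ e ∣ (b + 0).val)).card : ℕ) : ℤ) ≤ w := by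
      exact_mod_cast card_le hN hpe 0
    have h2 : (((Finset.univ.filter (fun b : ZMod N => p ^ e ∣ (b + c).val)).card : ℕ) : ℤ) ≤ w := by
      exact_mod_cast card_le hN hpe c
    have hpos : (0 : ℤ) ≤ 4 * (M : ℤ) ^ 2 := by positivity
    nlinarith [mul_le_mul_of_nonneg_right h1 hpos, mul_le_mul_of_nonneg_right h2 hpos]
  have hexp : ∑ b, (f b - f (b + c)) ^ 2 = 2 * K := by
    have h1 : ac f 0 = K := by rw [hac, if_pos rfl]
    have h2 : ac f c = 0 := by rw [hac, if_neg hc0]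
    have h3 : ∑ b, f (b + c) ^ 2 = ∑ b, f b ^ 2 :=
      Fintype.sum_equiv (Equiv.addRight c) _ _ (fun _ => rfl)
    have h4 : ∑ b, f b ^ 2 = K := by
      rw [← h1]
      unfold ac
      refine Finset.sum_congr rfl fun b _ => ?_
      rw [add_zero, sq]
    have h5 : ∑ b, (f b - f (b + c)) ^ 2 = ∑ b, f b ^ 2 + ∑ b, f (b + c) ^ 2 - 2 * ac f c := by
      unfold ac
      rw [Finset.mul_sum, ← Finset.sum_add_distrib, ← Finset.sum_sub_distrib]
      refine Finset.sum_congr rfl fun b _ => by ring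
    rw [h5, h3, h4, h2]
    ring
  rw [hexp] at hsum
  linarith

end Vale.Agent.P033
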