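import Mathlib

/-!
P033: circulant Hadamard matrices and projections of their first rows (definitions used in the
hand-in).
-/

namespace Vale.Agent.P033

open Matrix

/-- `h` is the first row of a real circulant Hadamard matrix of order `n`: its entries are `1` or
`-1` and `H Hᵀ = n I` for the circulant matrix `H i j = h (j - i)`, indices modulo `n` -/
def IsCircHadRow {n : ℕ} [NeZero n] (h : ZMod n → ℤ) : Prop :=
  (∀ j, h j = 1 ∨ h j = -1) ∧
    (Matrix.of fun i j : ZMod n => h (j - i)) * (Matrix.of fun i j : ZMod n => h (j - i))ᵀ =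
      (n : ℤ) • (1 : Matrix (ZMod n) (ZMod n) ℤ)

/-- the projection of `h : ℤ/(ℓ N) → ℤ` to `ℤ/N`: the value at `j` is the sum of the `ℓ` values
`h i` with `i ≡ j` modulo `N` -/
def proj (ℓ N : ℕ) [NeZero (ℓ * N)] (h : ZMod (ℓ * N) → ℤ) (j : ZMod N) : ℤ :=
  ∑ i : ZMod (ℓ * N) with ZMod.castHom (dvd_mul_left N ℓ) (ZMod N) i = j, h i

end Vale.Agent.P033
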