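import Vale.Agent.P033.Defs
import Vale.Agent.P033.Core

/-!
P033: symmetric projections of circulant Hadamard matrices.
-/

namespace Vale.Agent.P033

open Finset Matrix

theorem ac_of_had {n : ℕ} [NeZero n] {h : ZMod n → ℤ} (hh : IsCircHadRow h) (s : ZMod n) :
    ac h s = if s = 0 then (n : ℤ) else 0 := by
  have h1 := congrFun (congrFun hh.2 0) (-s)
  rw [Matrix.mul_apply] at h1
  simp only [Matrix.of_apply, Matrix.transpose_apply, sub_zero, sub_neg_eq_add, Matrix.smul_apply,
    Matrix.one_apply, smul_eq_mul] at h1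
  unfold ac
  rw [h1]
  by_cases hs : s = 0
  · subst hs
    simp
  · have : ¬ (0 : ZMod n) = -s := fun h => hs (by rw [← neg_neg s, ← h, neg_zero])
    rw [if_neg this, if_neg hs, mul_zero]

theorem ac_proj {ℓ N : ℕ} [NeZero (ℓ * N)] [NeZero N] {h : ZMod (ℓ * N) → ℤ}
    (hh : IsCircHadRow h) (s : ZMod N) :
    ac (proj ℓ N h) s = if s = 0 then ((ℓ * N : ℕ) : ℤ) else 0 := by
  set π := ZMod.castHom (dvd_mul_left N ℓ) (ZMod N) with hπ
  have h1 : ac (proj ℓ N h) s =
      ∑ i : ZMod (ℓ * N), ∑ i' : ZMod (ℓ * N), if π i' = π i + s then h i * h i' else 0 := by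
    unfold ac
    have h2 : ∀ j : ZMod N, proj ℓ N h j * proj ℓ N h (j + s) =
        ∑ i : ZMod (ℓ * N), if π i = j then h i * proj ℓ N h (π i + s) else 0 := by
      intro j
      conv_lhs => rw [proj]
      rw [Finset.sum_mul, Finset.sum_filter]
      refine Finset.sum_congr rfl fun i _ => ?_
      by_cases hi : π i = j
      · rw [if_pos hi, if_pos hi, hi]
      · rw [if_neg hi, if_neg hi]
    simp only [h2]
    rw [Finset.sum_comm]
    refine Finset.sum_congr rfl fun i _ => ?_
    rw [Finset.sum_ite_eq Finset.univ (π i), if_pos (Finset.mem_univ _), proj, Finset.mul_sum,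
      Finset.sum_filter]
  rw [h1]
  have h3 : ∀ i : ZMod (ℓ * N), (∑ i' : ZMod (ℓ * N), if π i' = π i + s then h i * h i' else 0) =
      ∑ d : ZMod (ℓ * N), if π d = s then h i * h (i + d) else 0 := by
    intro i
    symm
    refine Fintype.sum_equiv (Equiv.addLeft i) _ _ (fun d => ?_)
    simp only [Equiv.coe_addLeft, map_add, add_right_inj]
  simp only [h3]
  rw [Finset.sum_comm]
  have h4 : ∀ d : ZMod (ℓ * N), (∑ i : ZMod (ℓ * N), if π d = s then h i * h (i + d) else 0) =
      if d = 0 then (if s = 0 then ((ℓ * N : ℕ) : ℤ) else 0) else 0 := by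
    intro d
    by_cases hd : π d = s
    · simp only [if_pos hd]
      have := ac_of_had hh d
      unfold ac at this
      rw [this]
      by_cases h0 : d = 0
      · subst h0
        rw [map_zero] at hd
        rw [if_pos rfl, if_pos rfl, if_pos hd.symm]
      · rw [if_neg h0, if_neg h0]
    · simp only [if_neg hd, Finset.sum_const_zero]
      by_cases h0 : d = 0
      · subst h0
        rw [map_zero] at hd
        rw [if_pos rfl, if_neg (fun h => hd h.symm)]
      · rw [if_neg h0]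
  simp only [h4]
  rw [Finset.sum_ite_eq' Finset.univ (0 : ZMod (ℓ * N)), if_pos (Finset.mem_univ _)]

theorem proj_bound {ℓ N : ℕ} [NeZero (ℓ * N)] [NeZero N] {h : ZMod (ℓ * N) → ℤ}
    (hh : IsCircHadRow h) (j : ZMod N) : |proj ℓ N h j| ≤ ℓ := by
  have h1 : |proj ℓ N h j| ≤ ((Finset.univ.filter (fun i : ZMod (ℓ * N) =>
      ZMod.castHom (dvd_mul_left N ℓ) (ZMod N) i = j)).card : ℤ) := by
    unfold proj
    refine (Finset.abs_sum_le_sum_abs _ _).trans ?_
    rw [Finset.card_eq_sum_ones, Nat.cast_sum]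
    refine Finset.sum_le_sum fun i _ => ?_
    rcases hh.1 i with h | h <;> rw [h] <;> norm_num
  refine h1.trans ?_
  have hN : 0 < N := Nat.pos_of_ne_zero (NeZero.ne N)
  have h2 : (Finset.univ.filter (fun i : ZMod (ℓ * N) =>
      ZMod.castHom (dvd_mul_left N ℓ) (ZMod N) i = j)).card ≤ ℓ := by
    conv_rhs => rw [← Finset.card_range ℓ]
    refine Finset.card_le_card_of_injOn (fun i => i.val / N) ?_ ?_
    · intro i _
      simp only [Finset.coe_range, Set.mem_Iio]
      rw [Nat.div_lt_iff_lt_mul hN]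
      exact ZMod.val_lt i
    · have hv : ∀ i : ZMod (ℓ * N), ZMod.castHom (dvd_mul_left N ℓ) (ZMod N) i = j →
          i.val % N = j.val := by
        intro i hi
        rw [ZMod.castHom_apply, ← ZMod.natCast_val] at hi
        rw [← hi, ZMod.val_natCast]
      intro i hi i' hi' hii
      simp only [Finset.coe_filter, Finset.mem_univ, true_and, Set.mem_setOf_eq] at hi hi'
      have e1 := hv i hi
      have e2 := hv i' hi'
      have e3 : i.val = i'.val := by
        rw [← Nat.div_add_mod i.val N, ← Nat.div_add_mod i'.val N, e1, e2]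
        simp only at hii
        rw [hii]
      exact ZMod.val_injective _ e3
  exact_mod_cast h2

/-- parity as an additive character -/
theorem parity {N : ℕ} [NeZero N] (hN : 2 ∣ N) (f : ZMod N → ℤ) {K : ℤ} (hK : 0 < K)
    (hac : ∀ s, ac f s = if s = 0 then K else 0) (s : ZMod N) (hs : ∀ j, f (s - j) = f j) :
    Even s.val := by
  by_contra hodd
  rw [Nat.not_even_iff_odd] at hodd
  set χ : ZMod N → ℤ := fun j => (-1) ^ j.val with hχ
  have hadd : ∀ a b : ZMod N, χ (a + b) = χ a * χ b := by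
    intro a b
    simp only [hχ]
    rw [← pow_add, ZMod.val_add]
    have h1 : Even ((a.val + b.val) % N) ↔ Even (a.val + b.val) := by
      rw [Nat.even_iff, Nat.even_iff, Nat.mod_mod_of_dvd _ hN]
    rcases Nat.even_or_odd (a.val + b.val) with h | h
    · rw [Even.neg_one_pow h, Even.neg_one_pow (h1.2 h)]
    · have h2 : Odd ((a.val + b.val) % N) := by
        rw [← Nat.not_even_iff_odd]
        intro h3
        exact (Nat.not_even_iff_odd.2 h) (h1.1 h3)
      rw [Odd.neg_one_pow h, Odd.neg_one_pow h2]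
  have hsq : ∀ a : ZMod N, χ a * χ a = 1 := by
    intro a
    simp only [hχ]
    rw [← pow_add, ← two_mul, pow_mul]
    simp
  have hT : (∑ j, χ j * f j) ^ 2 = K := by
    have h1 : (∑ j, χ j * f j) ^ 2 = ∑ s, χ s * ac f s := by
      unfold ac
      simp only [Finset.mul_sum]
      rw [Finset.sum_comm, sq, Finset.sum_mul]
      refine Finset.sum_congr rfl fun j _ => ?_
      rw [Finset.mul_sum]
      symm
      refine Fintype.sum_equiv (Equiv.addLeft j) _ _ (fun d => ?_)
      simp only [Equiv.coe_addLeft, hadd]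
      have := hsq j
      calc χ d * (f j * f (j + d)) = (χ j * χ j) * (χ d * (f j * f (j + d))) := by
            rw [this, one_mul]
        _ = χ j * f j * (χ j * χ d * f (j + d)) := by ring
    rw [h1, Finset.sum_congr rfl fun s _ => by rw [hac s]]
    have h0 : χ 0 = 1 := by simp [hχ]
    simp [h0]
  have hneg : ∑ j, χ j * f j = -∑ j, χ j * f j := by
    have h1 : ∑ j, χ j * f j = ∑ j, χ (s - j) * f (s - j) :=
      (Fintype.sum_equiv (Equiv.subLeft s) _ _ (fun _ => rfl)).symm
    have h2 : χ s = -1 := by simp only [hχ]; exact Odd.neg_one_pow hodd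
    have h3 : ∀ j, χ (s - j) = - χ j := by
      intro j
      have h4 := hadd (s - j) j
      rw [sub_add_cancel, h2] at h4
      have h5 := hsq j
      calc χ (s - j) = χ (s - j) * (χ j * χ j) := by rw [h5, mul_one]
        _ = (χ (s - j) * χ j) * χ j := by ring
        _ = - χ j := by rw [← h4]; ring
    conv_lhs => rw [h1]
    rw [← Finset.sum_neg_distrib]
    refine Finset.sum_congr rfl fun j _ => ?_
    rw [h3, hs]
    ring
  have h0 : ∑ j, χ j * f j = 0 := by omega
  rw [h0] at hT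
  norm_num at hT
  omega

/-- the centre of symmetry can be moved to `0` -/
theorem exists_centre {N : ℕ} [NeZero N] (f : ZMod N → ℤ) {K : ℤ} (hK : 0 < K)
    (hac : ∀ s, ac f s = if s = 0 then K else 0) (s : ZMod N) (hs : ∀ j, f (s - j) = f j) :
    ∃ r : ZMod N, ∀ j, f (r + -j) = f (r + j) := by
  have h2 : ∃ r : ZMod N, r + r = s := by
    have hv : ((s.val : ℕ) : ZMod N) = s := ZMod.natCast_zmod_val s
    rcases Nat.even_or_odd s.val with ⟨m, hm⟩ | hodd
    · refine ⟨(m : ZMod N), ?_⟩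
      rw [← Nat.cast_add, ← hm, hv]
    · rcases Nat.even_or_odd N with hN | hN
      · exact absurd (parity hN.two_dvd f hK hac s hs) (Nat.not_even_iff_odd.2 hodd)
      · obtain ⟨m, hm⟩ := hodd.add_odd hN
        refine ⟨(m : ZMod N), ?_⟩
        rw [← Nat.cast_add, ← hm, Nat.cast_add, hv, ZMod.natCast_self, add_zero]
  obtain ⟨r, hr⟩ := h2
  refine ⟨r, fun j => ?_⟩
  rw [← hs (r + j), ← hr]
  congr 1
  ring

theorem bound {ℓ N : ℕ} [NeZero (ℓ * N)] [NeZero N] {h : ZMod (ℓ * N) → ℤ}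
    (hh : IsCircHadRow h) (hs : ∃ s : ZMod N, ∀ j, proj ℓ N h (s - j) = proj ℓ N h j)
    {p e : ℕ} (hp : p.Prime) (hd : p ^ e ∣ N) (hnd : ¬ p ^ (e + 1) ∣ N) : p ^ e ≤ 4 * ℓ := by
  have hℓ : 0 < ℓ := Nat.pos_of_ne_zero (left_ne_zero_of_mul (NeZero.ne (ℓ * N)))
  have hN : 0 < N := Nat.pos_of_ne_zero (NeZero.ne N)
  rcases Nat.eq_zero_or_pos e with he | he
  · subst he
    rw [pow_zero]
    omega
  have hK : (0 : ℤ) < ((ℓ * N : ℕ) : ℤ) := by exact_mod_cast Nat.mul_pos hℓ hN
  obtain ⟨s, hs⟩ := hs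
  obtain ⟨r, hr⟩ := exists_centre (proj ℓ N h) hK (ac_proj hh) s hs
  obtain ⟨w, hw⟩ := hd
  have hcop : p.Coprime w := by
    rw [hp.coprime_iff_not_dvd]
    rintro ⟨v, hv⟩
    exact hnd ⟨v, by rw [hw, hv, pow_succ]; ring⟩
  have hmain := main_ineq (fun j => proj ℓ N h (r + j)) hr hK (by
    intro s
    have h1 : ac (fun j => proj ℓ N h (r + j)) s = ac (proj ℓ N h) s := by
      unfold ac
      refine Fintype.sum_equiv (Equiv.addLeft r) _ _ (fun j => ?_)
      simp only [Equiv.coe_addLeft, add_assoc]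
    rw [h1]
    exact ac_proj hh s) (M := ℓ) (fun b => proj_bound hh _) hp he hcop hw
  have hw0 : 0 < w := by
    rcases Nat.eq_zero_or_pos w with h0 | h0
    · rw [h0, mul_zero] at hw
      omega
    · exact h0
  have h3 : ℓ * (p ^ e * w) ≤ 4 * ℓ ^ 2 * w := by
    rw [← hw]
    exact_mod_cast hmain
  have h4 : (ℓ * w) * p ^ e ≤ (ℓ * w) * (4 * ℓ) := by
    calc (ℓ * w) * p ^ e = ℓ * (p ^ e * w) := by ring
      _ ≤ 4 * ℓ ^ 2 * w := h3
      _ = (ℓ * w) * (4 * ℓ) := by ring
  exact Nat.le_of_mul_le_mul_left h4 (Nat.mul_pos hℓ hw0)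

theorem dvd_lcm {ℓ N : ℕ} (hN : N ≠ 0)
    (hb : ∀ p e : ℕ, p.Prime → p ^ e ∣ N → ¬ p ^ (e + 1) ∣ N → p ^ e ≤ 4 * ℓ) :
    N ∣ (Finset.Icc 1 (4 * ℓ)).lcm id := by
  refine (Nat.dvd_iff_prime_pow_dvd_dvd _ _).2 ?_
  intro p k hp hk
  have h1 : p ^ N.factorization p ∣ N := Nat.ordProj_dvd N p
  have h2 : ¬ p ^ (N.factorization p + 1) ∣ N := Nat.pow_succ_factorization_not_dvd hN hp
  have h3 := hb p _ hp h1 h2
  have h4 : k ≤ N.factorization p := (hp.pow_dvd_iff_le_factorization hN).1 hk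
  refine (pow_dvd_pow p h4).trans ?_
  exact Finset.dvd_lcm (f := id) (Finset.mem_Icc.2 ⟨Nat.one_le_iff_ne_zero.2 (pow_pos hp.pos _).ne', h3⟩)

end Vale.Agent.P033
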