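import Vale.Agent.P033.Sixteen

/-!
P033: the two-fold projection is never symmetric.
-/

namespace Vale.Agent.P033

open Finset Matrix

theorem isSquare_order {ℓ N : ℕ} [NeZero (ℓ * N)] [NeZero N] {h : ZMod (ℓ * N) → ℤ}
    (hh : IsCircHadRow h) : IsSquare (ℓ * N) := by
  have h1 : ((ℓ * N : ℕ) : ℤ) = (∑ j, proj ℓ N h j) ^ 2 := by
    rw [← sum_ac, Finset.sum_congr rfl fun s _ => ac_proj hh s]
    simp
  refine ⟨(∑ j, proj ℓ N h j).natAbs, ?_⟩
  have h2 : ((ℓ * N : ℕ) : ℤ) = (((∑ j, proj ℓ N h j).natAbs * (∑ j, proj ℓ N h j).natAbs : ℕ) : ℤ) := by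
    rw [h1, Int.natAbs_mul_self, sq]
  exact_mod_cast h2

theorem div840 : ∀ N ∈ Nat.divisors 840, IsSquare (2 * N) → N ≤ 2 ∨ N = 8 := by
  decide +kernel

theorem lcm8 : (Finset.Icc 1 (4 * 2)).lcm id = 840 := by
  decide +kernel

theorem fold {N : ℕ} [NeZero (2 * N)] [NeZero N] {h : ZMod (2 * N) → ℤ} (hh : IsCircHadRow h)
    (h2 : 2 < N) (hs : ∃ s : ZMod N, ∀ j, proj 2 N h (s - j) = proj 2 N h j) : False := by
  have h1 := dvd_lcm (ℓ := 2) (NeZero.ne N) (fun p e hp hd hnd => bound hh hs hp hd hnd)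
  rw [lcm8] at h1
  have h3 := div840 N (Nat.mem_divisors.2 ⟨h1, by norm_num⟩) (isSquare_order hh)
  rcases h3 with h3 | h3
  · omega
  · subst h3
    exact not16 h hh hs

end Vale.Agent.P033
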