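import Vale.Agent.P033.Final

/-!
P033: order 16.
-/

namespace Vale.Agent.P033

open Finset Matrix

theorem ac16 (h : ZMod 16 → ℤ) : ac h 2 =
    h 0 * h 2 + h 1 * h 3 + h 2 * h 4 + h 3 * h 5 + h 4 * h 6 + h 5 * h 7 + h 6 * h 8 + h 7 * h 9 +
    h 8 * h 10 + h 9 * h 11 + h 10 * h 12 + h 11 * h 13 + h 12 * h 14 + h 13 * h 15 + h 14 * h 0 +
    h 15 * h 1 := by
  unfold ac
  rw [show (Finset.univ : Finset (ZMod 16)) = {0, 1, 2, 3, 4, 5, 6, 7, 8, 9, 10, 11, 12, 13, 14, 15}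
    from by decide]
  repeat rw [Finset.sum_insert (by decide)]
  rw [Finset.sum_singleton]
  have e0 : (0 : ZMod 16) + 2 = 2 := by decide
  have e1 : (1 : ZMod 16) + 2 = 3 := by decide
  have e2 : (2 : ZMod 16) + 2 = 4 := by decide
  have e3 : (3 : ZMod 16) + 2 = 5 := by decide
  have e4 : (4 : ZMod 16) + 2 = 6 := by decide
  have e5 : (5 : ZMod 16) + 2 = 7 := by decide
  have e6 : (6 : ZMod 16) + 2 = 8 := by decide
  have e7 : (7 : ZMod 16) + 2 = 9 := by decide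
  have e8 : (8 : ZMod 16) + 2 = 10 := by decide
  have e9 : (9 : ZMod 16) + 2 = 11 := by decide
  have e10 : (10 : ZMod 16) + 2 = 12 := by decide
  have e11 : (11 : ZMod 16) + 2 = 13 := by decide
  have e12 : (12 : ZMod 16) + 2 = 14 := by decide
  have e13 : (13 : ZMod 16) + 2 = 15 := by decide
  have e14 : (14 : ZMod 16) + 2 = 0 := by decide
  have e15 : (15 : ZMod 16) + 2 = 1 := by decide
  rw [e0, e1, e2, e3, e4, e5, e6, e7, e8, e9, e10, e11, e12, e13, e14, e15]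
  ring

theorem ac8 (f : ZMod 8 → ℤ) : ac f 0 =
    f 0 * f 0 + f 1 * f 1 + f 2 * f 2 + f 3 * f 3 + f 4 * f 4 + f 5 * f 5 + f 6 * f 6 +
    f 7 * f 7 ∧ ac f 4 =
    f 0 * f 4 + f 1 * f 5 + f 2 * f 6 + f 3 * f 7 + f 4 * f 0 + f 5 * f 1 + f 6 * f 2 +
    f 7 * f 3 := by
  unfold ac
  rw [show (Finset.univ : Finset (ZMod 8)) = {0, 1, 2, 3, 4, 5, 6, 7} from by decide]
  repeat rw [Finset.sum_insert (by decide)]
  rw [Finset.sum_singleton]
  have e0 : (0 : ZMod 8) + 4 = 4 := by decide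
  have e1 : (1 : ZMod 8) + 4 = 5 := by decide
  have e2 : (2 : ZMod 8) + 4 = 6 := by decide
  have e3 : (3 : ZMod 8) + 4 = 7 := by decide
  have e4 : (4 : ZMod 8) + 4 = 0 := by decide
  have e5 : (5 : ZMod 8) + 4 = 1 := by decide
  have e6 : (6 : ZMod 8) + 4 = 2 := by decide
  have e7 : (7 : ZMod 8) + 4 = 3 := by decide
  constructor
  · simp only [add_zero]
    ring
  · repeat rw [Finset.sum_insert (by decide)]
    rw [Finset.sum_singleton]
    rw [e0, e1, e2, e3, e4, e5, e6, e7]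
    ring

theorem no16 (h : ZMod 16 → ℤ) (hpm : ∀ j, h j = 1 ∨ h j = -1) (hac : ac h 2 = 0)
    (f : ZMod 8 → ℤ) (f0 : f 0 = h 0 + h 8) (f1 : f 1 = h 1 + h 9) (f2 : f 2 = h 2 + h 10)
    (f3 : f 3 = h 3 + h 11) (f4 : f 4 = h 4 + h 12) (f5 : f 5 = h 5 + h 13)
    (f6 : f 6 = h 6 + h 14) (f7 : f 7 = h 7 + h 15) (g3 : f 3 = f 1) (g5 : f 5 = f 1)
    (g7 : f 7 = f 1) (g6 : f 6 = f 2) (a0 : ac f 0 = 16) (a4 : ac f 4 = 0) : False := by
  rw [(ac8 f).1, g3, g5, g7, g6] at a0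
  rw [(ac8 f).2, g3, g5, g7, g6] at a4
  rw [ac16] at hac
  have key : ∀ a b : ℤ, (a = 1 ∨ a = -1) → (b = 1 ∨ b = -1) → a + b = -2 ∨ a + b = 0 ∨ a + b = 2 := by
    rintro a b (rfl | rfl) (rfl | rfl) <;> norm_num
  have k0 := key _ _ (hpm 0) (hpm 8)
  have k1 := key _ _ (hpm 1) (hpm 9)
  have k2 := key _ _ (hpm 2) (hpm 10)
  have k4 := key _ _ (hpm 4) (hpm 12)
  rw [← f0] at k0
  rw [← f1] at k1
  rw [← f2] at k2
  rw [← f4] at k4
  have hval : f 1 = 0 ∧ f 0 * f 0 = 4 ∧ f 4 = - f 0 ∧ f 2 * f 2 = 4 := by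
    rcases k0 with k0 | k0 | k0 <;> rcases k1 with k1 | k1 | k1 <;>
      rcases k2 with k2 | k2 | k2 <;> rcases k4 with k4 | k4 | k4 <;>
      rw [k0, k1, k2, k4] at a0 a4 <;> rw [k0, k1, k2, k4] <;> revert a0 a4 <;> norm_num
  obtain ⟨v1, v0, v4, v2⟩ := hval
  have same : ∀ a b : ℤ, (a = 1 ∨ a = -1) → (b = 1 ∨ b = -1) → (a + b) * (a + b) = 4 → b = a := by
    rintro a b (rfl | rfl) (rfl | rfl) <;> norm_num
  have h8 : h 8 = h 0 := same _ _ (hpm 0) (hpm 8) (by rw [← f0]; exact v0)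
  have h12 : h 12 = h 4 := same _ _ (hpm 4) (hpm 12) (by rw [← f4, v4]; linarith)
  have h10 : h 10 = h 2 := same _ _ (hpm 2) (hpm 10) (by rw [← f2]; exact v2)
  have h14 : h 14 = h 6 := same _ _ (hpm 6) (hpm 14) (by rw [← f6, g6]; exact v2)
  have h6 : h 6 = h 2 := by linarith
  have h4 : h 4 = - h 0 := by linarith
  have h9 : h 9 = - h 1 := by linarith
  have h11 : h 11 = - h 3 := by linarith
  have h13 : h 13 = - h 5 := by linarith
  have h15 : h 15 = - h 7 := by linarith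
  rw [h8, h12, h10, h14, h6, h4, h9, h11, h13, h15] at hac
  have hfin : h 1 * h 3 + h 3 * h 5 + h 5 * h 7 - h 7 * h 1 = 0 := by nlinarith
  rcases hpm 1 with e1 | e1 <;> rcases hpm 3 with e3 | e3 <;> rcases hpm 5 with e5 | e5 <;>
    rcases hpm 7 with e7 | e7 <;> rw [e1, e3, e5, e7] at hfin <;> norm_num at hfin

theorem ac_shift {N : ℕ} [NeZero N] (f : ZMod N → ℤ) (r s : ZMod N) :
    ac (fun j => f (r + j)) s = ac f s := by
  unfold ac
  refine Fintype.sum_equiv (Equiv.addLeft r) _ _ (fun j => ?_)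
  simp only [Equiv.coe_addLeft, add_assoc]

theorem cast_iff : ∀ x i : ZMod (2 * 8), ZMod.castHom (dvd_mul_left 8 2) (ZMod 8) i =
    ZMod.castHom (dvd_mul_left 8 2) (ZMod 8) x ↔ i = x ∨ i = x + 8 := by
  decide

theorem cast_surj : ∀ r : ZMod 8, ∃ R : ZMod (2 * 8),
    ZMod.castHom (dvd_mul_left 8 2) (ZMod 8) R = r := by decide

theorem add8_ne : ∀ x : ZMod (2 * 8), x ≠ x + 8 := by decide

theorem proj28 (h : ZMod (2 * 8) → ℤ) (x : ZMod (2 * 8)) :
    proj 2 8 h (ZMod.castHom (dvd_mul_left 8 2) (ZMod 8) x) = h x + h (x + 8) := by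
  unfold proj
  have h1 : (Finset.univ.filter (fun i : ZMod (2 * 8) => ZMod.castHom (dvd_mul_left 8 2) (ZMod 8) i =
      ZMod.castHom (dvd_mul_left 8 2) (ZMod 8) x)) = {x, x + 8} := by
    ext i
    rw [Finset.mem_filter, Finset.mem_insert, Finset.mem_singleton]
    exact ⟨fun h => (cast_iff x i).1 h.2, fun h => ⟨Finset.mem_univ _, (cast_iff x i).2 h⟩⟩
  rw [h1, Finset.sum_pair (add8_ne x)]

theorem not16 (h : ZMod (2 * 8) → ℤ) (hh : IsCircHadRow h)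
    (hs : ∃ s : ZMod 8, ∀ j, proj 2 8 h (s - j) = proj 2 8 h j) : False := by
  have hacp := ac_proj (ℓ := 2) (N := 8) hh
  obtain ⟨s, hs⟩ := hs
  obtain ⟨r, hr⟩ := exists_centre (proj 2 8 h) (by norm_num) hacp s hs
  set f : ZMod 8 → ℤ := fun j => proj 2 8 h (r + j) with hf
  have hacf : ∀ s, ac f s = if s = 0 then (4 : ℤ) ^ 2 else 0 := by
    intro s
    rw [hf, ac_shift, hacp]
    norm_num
  have hinv : ∀ t : ZMod 8, IsUnit t → ∀ b, f (t * b) = f b := fun t ht b =>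
    inv_unit f (fun b => hr b) (by norm_num) hacf (M := 2) (fun b => proj_bound hh _) ht b
  have hu : ∀ t : ZMod 8, t * t = 1 → IsUnit t := fun t ht => IsUnit.of_mul_eq_one t ht
  have g3 : f 3 = f 1 := by
    have := hinv 3 (hu 3 (by decide)) 1
    rwa [mul_one] at this
  have g5 : f 5 = f 1 := by
    have := hinv 5 (hu 5 (by decide)) 1
    rwa [mul_one] at this
  have g7 : f 7 = f 1 := by
    have := hinv 7 (hu 7 (by decide)) 1
    rwa [mul_one] at this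
  have g6 : f 6 = f 2 := by
    have := hinv 3 (hu 3 (by decide)) 2
    rwa [show (3 : ZMod 8) * 2 = 6 from by decide] at this
  obtain ⟨R, hR⟩ : ∃ R : ZMod (2 * 8), ZMod.castHom (dvd_mul_left 8 2) (ZMod 8) R = r :=
    cast_surj r
  have hfh : ∀ k : ZMod (2 * 8), f (ZMod.castHom (dvd_mul_left 8 2) (ZMod 8) k) =
      h (R + k) + h (R + (k + 8)) := by
    intro k
    rw [hf]
    simp only
    rw [← hR, ← map_add, proj28, add_assoc]
  refine no16 (fun k => h (R + k)) (fun j => hh.1 _) ?_ f (hfh 0) (hfh 1) (hfh 2) (hfh 3) (hfh 4)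
    (hfh 5) (hfh 6) (hfh 7) g3 g5 g7 g6 ?_ ?_
  · have h1 : ac (fun k : ZMod (2 * 8) => h (R + k)) 2 = 0 := by
      rw [ac_shift, ac_of_had hh, if_neg (by decide)]
    exact h1
  · rw [hacf, if_pos rfl]
    norm_num
  · rw [hacf, if_neg (by decide)]

end Vale.Agent.P033
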